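import Vale.Agent.P239Z.Main

/-!
The Singer conjecture in dimension four, in all degrees.
-/

namespace Vale.Agent.Results.P239.AllDegrees

open Vale.Agent.P239

universe u v w

theorem result :
    -- (1) Q1: `M` is a closed topological 4-manifold, `X` is its universal cover, which is
    -- contractible, and `Γ` is the deck group
    (∀ {M : Type u} {X : Type v} {Γ : Type w}
      [TopologicalSpace M] [T2Space M] [CompactSpace M] [ChartedSpace (EuclideanSpace ℝ (Fin 4)) M]
      [TopologicalSpace X] [ContractibleSpace X] [Group Γ] [MulAction Γ X] [ContinuousConstSMul Γ X]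
      (p : X → M), IsQuotientCoveringMap p Γ → ∀ q : ℕ, q ≠ 2 → bettiTwo Γ X q = 0) ∧
    -- (2) closed topological `n`-manifolds, for every `n ≥ 3`, in degrees `q ≤ 1` and `q ≥ n - 1`
    (∀ n : ℕ, 3 ≤ n → ∀ {M : Type u} {X : Type v} {Γ : Type w}
      [TopologicalSpace M] [T2Space M] [CompactSpace M] [ChartedSpace (EuclideanSpace ℝ (Fin n)) M]
      [TopologicalSpace X] [ContractibleSpace X] [Group Γ] [MulAction Γ X] [ContinuousConstSMul Γ X]
      (p : X → M), IsQuotientCoveringMap p Γ → ∀ q : ℕ, q ≤ 1 ∨ n ≤ q + 1 →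
      bettiTwo Γ X q = 0) := by
  have key : ∀ n : ℕ, 3 ≤ n → ∀ {M : Type u} {X : Type v} {Γ : Type w}
      [TopologicalSpace M] [T2Space M] [CompactSpace M] [ChartedSpace (EuclideanSpace ℝ (Fin n)) M]
      [TopologicalSpace X] [ContractibleSpace X] [Group Γ] [MulAction Γ X] [ContinuousConstSMul Γ X]
      (p : X → M), IsQuotientCoveringMap p Γ → ∀ q : ℕ, q ≤ 1 ∨ n ≤ q + 1 →
      bettiTwo Γ X q = 0 := by
    intro n hn M X Γ _ _ _ _ _ _ _ _ _ p hp q hq
    rcases hq with hq | hq
    · rcases Nat.le_one_iff_eq_zero_or_eq_one.1 hq with rfl | rfl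
      · exact H269.bettiTwo_zero_of_cover (le_trans (by norm_num) hn) p hp
      · exact H260.singer_n hn p hp
    · exact P239Z.betti_high hn hp hq
  refine ⟨?_, key⟩
  intro M X Γ _ _ _ _ _ _ _ _ _ p hp q hq
  exact key 4 (by norm_num) p hp q (by omega)

end Vale.Agent.Results.P239.AllDegrees
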